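import Vale.Agent.P355.Seven

namespace Vale.Agent.Results.P355.AtMostFive

theorem result (k : ℕ) (B : Fin k → OrthonormalBasis (Fin 6) ℂ (EuclideanSpace ℂ (Fin 6)))
    (h : ∀ i j, i ≠ j → ∀ a b, ‖inner ℂ (B i a) (B j b)‖ ^ 2 = 1 / 6) : k ≤ 5 :=
  Vale.Agent.P355.le_five k B h

end Vale.Agent.Results.P355.AtMostFive
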