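import Vale.Agent.P355.Four

namespace Vale.Agent.Results.P355.Zauner

theorem result :
    IsGreatest {k : ℕ | ∃ B : Fin k → OrthonormalBasis (Fin 6) ℂ (EuclideanSpace ℂ (Fin 6)),
      ∀ i j, i ≠ j → ∀ a b, ‖inner ℂ (B i a) (B j b)‖ ^ 2 = 1 / 6} 3 :=
  ⟨Vale.Agent.P355.exists_three, fun k ⟨B, h⟩ => Vale.Agent.P355.le_three k B h⟩

end Vale.Agent.Results.P355.Zauner
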